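import Vale.Agent.Lib.P254.TW.Defs

/-!
# P254, truncated-wedge class: skeleton of the proof of (TW)

Weight `a + e z` on `[0,1]`, `a, e ≥ 0`, `a + e > 0`; `R ≥ 0` with `R'' ≤ 0` on `[0,1]`.
`80 (a A + e M1)^2 S^2 (A M2 - M1^2) ≤ 9 A^8`, through the tangent-line form
`(a A + e M1) S + 15 A (A M2 - M1^2) ≤ (9/4) A^3`.
For `a = 0`, `e = 1` this is `Vale.Agent.Lib.P254.Ramp.ramp_ineq`.
-/

namespace Vale.Agent.Lib.P254.TW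

open MeasureTheory intervalIntegral Set

/-! ### POS: positivity of the constants and of the kernels -/

theorem Dl_pos (a e : ℝ) (ha : 0 ≤ a) (he : 0 ≤ e) (hae : 0 < a + e) : 0 < Dl a e := by
  sorry

theorem q1_pos (a e : ℝ) (ha : 0 ≤ a) (he : 0 ≤ e) (hae : 0 < a + e) : 0 < q1 a e := by
  sorry

theorem q2_pos (a e : ℝ) (ha : 0 ≤ a) (he : 0 ≤ e) (hae : 0 < a + e) : 0 < q2 a e := by
  sorry

theorem kA_nonneg (a e : ℝ) (ha : 0 ≤ a) (he : 0 ≤ e) (c : ℝ) (hc : c ∈ Icc (0:ℝ) 1) :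
    0 ≤ kA a e c := by
  sorry

theorem kal_nonneg (a e : ℝ) (ha : 0 ≤ a) (he : 0 ≤ e) (c : ℝ) (hc : c ∈ Icc (0:ℝ) 1) :
    0 ≤ kal a e c := by
  sorry

theorem kbe_nonneg (a e : ℝ) (ha : 0 ≤ a) (he : 0 ≤ e) (c : ℝ) (hc : c ∈ Icc (0:ℝ) 1) :
    0 ≤ kbe a e c := by
  sorry

theorem kl_nonneg (a e : ℝ) (ha : 0 ≤ a) (he : 0 ≤ e) (c : ℝ) (hc : c ∈ Icc (0:ℝ) 1) :
    0 ≤ kl a e c := by
  sorry

/-! ### IBP: two integrations by parts -/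

theorem ibp2 (R R1 R2 K K1 K2 : ℝ → ℝ)
    (hR : ∀ x, HasDerivAt R (R1 x) x) (hR1 : ∀ x, HasDerivAt R1 (R2 x) x)
    (hR2 : Continuous R2)
    (hK : ∀ x, HasDerivAt K (K1 x) x) (hK1 : ∀ x, HasDerivAt K1 (K2 x) x)
    (hK2 : Continuous K2) (hK0 : K 0 = 0) (hK1' : K 1 = 0) :
    ∫ z in (0:ℝ)..1, R z * (-(K2 z)) =
      R 0 * K1 0 - R 1 * K1 1 + ∫ z in (0:ℝ)..1, (-(R2 z)) * K z := by
  sorry

/-! ### MOM: the four moment identities -/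

theorem A_eq (a e : ℝ) (R R1 R2 : ℝ → ℝ)
    (hR : ∀ x, HasDerivAt R (R1 x) x) (hR1 : ∀ x, HasDerivAt R1 (R2 x) x)
    (hR2 : Continuous R2) :
    mA a e R = R 0 * ((e + 3 * a) / 6) + R 1 * ((2 * e + 3 * a) / 6)
      + ∫ c in (0:ℝ)..1, (-(R2 c)) * kA a e c := by
  sorry

theorem al_eq (a e : ℝ) (R R1 R2 : ℝ → ℝ)
    (hR : ∀ x, HasDerivAt R (R1 x) x) (hR1 : ∀ x, HasDerivAt R1 (R2 x) x)
    (hR2 : Continuous R2) :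
    6 * ((3 * e + 4 * a) * mA a e R - (4 * e + 6 * a) * mM1 a e R) =
      Dl a e * R 0 + ∫ c in (0:ℝ)..1, (-(R2 c)) * kal a e c := by
  sorry

theorem be_eq (a e : ℝ) (R R1 R2 : ℝ → ℝ)
    (hR : ∀ x, HasDerivAt R (R1 x) x) (hR1 : ∀ x, HasDerivAt R1 (R2 x) x)
    (hR2 : Continuous R2) :
    6 * ((2 * e + 6 * a) * mM1 a e R - (e + 2 * a) * mA a e R) =
      Dl a e * R 1 + ∫ c in (0:ℝ)..1, (-(R2 c)) * kbe a e c := by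
  sorry

theorem l_eq (a e : ℝ) (R R1 R2 : ℝ → ℝ)
    (hR : ∀ x, HasDerivAt R (R1 x) x) (hR1 : ∀ x, HasDerivAt R1 (R2 x) x)
    (hR2 : Continuous R2) :
    Lf a e R = ∫ c in (0:ℝ)..1, (-(R2 c)) * kl a e c := by
  sorry

/-! ### PROJ: projection on affine functions in `L²((a + e z) dz)` -/

theorem psi_orth0 (a e : ℝ) (ha : 0 ≤ a) (he : 0 ≤ e) (hae : 0 < a + e)
    (R : ℝ → ℝ) (hR : Continuous R) :
    ∫ z in (0:ℝ)..1, (a + e * z) * psi a e R z = 0 := by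
  sorry

theorem psi_orth1 (a e : ℝ) (ha : 0 ≤ a) (he : 0 ≤ e) (hae : 0 < a + e)
    (R : ℝ → ℝ) (hR : Continuous R) :
    ∫ z in (0:ℝ)..1, z * ((a + e * z) * psi a e R z) = 0 := by
  sorry

/-- Pythagoras: `S = Psi0 + ‖psi‖²` with `Psi0 = al (A - M1) + be M1`. -/
theorem S_split (a e : ℝ) (ha : 0 ≤ a) (he : 0 ≤ e) (hae : 0 < a + e)
    (R : ℝ → ℝ) (hR : Continuous R) :
    mS a e R = al a e R * (mA a e R - mM1 a e R) + be a e R * mM1 a e R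
        + ∫ z in (0:ℝ)..1, (a + e * z) * (psi a e R z) ^ 2 := by
  sorry

/-- `‖psi‖² = ⟨psi, R⟩`. -/
theorem Spsi_eq (a e : ℝ) (ha : 0 ≤ a) (he : 0 ≤ e) (hae : 0 < a + e)
    (R : ℝ → ℝ) (hR : Continuous R) :
    ∫ z in (0:ℝ)..1, (a + e * z) * (psi a e R z) ^ 2 =
      ∫ z in (0:ℝ)..1, (a + e * z) * psi a e R z * R z := by
  sorry

/-! ### WIBP: the second antiderivative `W` of `φ` (used with `φ = (a + e z) psi`) -/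

theorem W_ibp (R R1 R2 φ : ℝ → ℝ)
    (hR : ∀ x, HasDerivAt R (R1 x) x) (hR1 : ∀ x, HasDerivAt R1 (R2 x) x)
    (hR2 : Continuous R2) (hφ : Continuous φ)
    (h0 : ∫ z in (0:ℝ)..1, φ z = 0) (h1 : ∫ z in (0:ℝ)..1, z * φ z = 0) :
    ∫ z in (0:ℝ)..1, φ z * R z =
      -(∫ c in (0:ℝ)..1, (-(R2 c)) * (∫ z in (0:ℝ)..c, (c - z) * φ z)) := by
  sorry

/-! ### WPAIR: `-W(c) = ∫ (gk c - pk a e c) φ` -/

theorem W_pair (a e : ℝ) (φ : ℝ → ℝ) (hφ : Continuous φ)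
    (h0 : ∫ z in (0:ℝ)..1, φ z = 0) (h1 : ∫ z in (0:ℝ)..1, z * φ z = 0)
    (c : ℝ) (hc : c ∈ Icc (0:ℝ) 1) :
    -(∫ z in (0:ℝ)..c, (c - z) * φ z) =
      ∫ z in (0:ℝ)..1, (gk c z - pk a e c z) * φ z := by
  sorry

/-! ### GNORM: the exact norm of `gk c - pk a e c` -/

theorem gk_norm (a e : ℝ) (ha : 0 ≤ a) (he : 0 ≤ e) (hae : 0 < a + e)
    (c : ℝ) (hc : c ∈ Icc (0:ℝ) 1) :
    ∫ z in (0:ℝ)..1, (a + e * z) * (gk c z - pk a e c z) ^ 2 =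
      c ^ 3 * (1 - c) ^ 3 * Nn a e c / (12 * Dl a e) := by
  sorry

/-! ### DLE: the polynomial inequality `D ≤ 40 kl kA / (q1 q2)` -/

theorem D_le (a e : ℝ) (ha : 0 ≤ a) (he : 0 ≤ e) (hae : 0 < a + e)
    (c : ℝ) (hc : c ∈ Icc (0:ℝ) 1) :
    c ^ 3 * (1 - c) ^ 3 * Nn a e c / (12 * Dl a e) ≤
      40 / (q1 a e * q2 a e) * (kl a e c * kA a e c) := by
  sorry

/-! ### CS: weighted Cauchy-Schwarz on `[0,1]` -/

theorem cs_weighted (a e : ℝ) (ha : 0 ≤ a) (he : 0 ≤ e)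
    (u ψ : ℝ → ℝ) (hu : Continuous u) (hψ : Continuous ψ) :
    (∫ z in (0:ℝ)..1, (a + e * z) * (u z * ψ z)) ^ 2 ≤
      (∫ z in (0:ℝ)..1, (a + e * z) * (u z) ^ 2) *
        (∫ z in (0:ℝ)..1, (a + e * z) * (ψ z) ^ 2) := by
  sorry

/-! ### WBND: pointwise bound of `W` -/

theorem W_bound (a e : ℝ) (ha : 0 ≤ a) (he : 0 ≤ e) (hae : 0 < a + e)
    (ψ : ℝ → ℝ) (hψ : Continuous ψ)
    (h0 : ∫ z in (0:ℝ)..1, (a + e * z) * ψ z = 0)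
    (h1 : ∫ z in (0:ℝ)..1, z * ((a + e * z) * ψ z) = 0)
    (c : ℝ) (hc : c ∈ Icc (0:ℝ) 1) (τ : ℝ) (hτ : 0 < τ) :
    |∫ z in (0:ℝ)..c, (c - z) * ((a + e * z) * ψ z)| ≤
      kA a e c / (2 * τ)
        + 20 * τ / (q1 a e * q2 a e) * kl a e c *
            (∫ z in (0:ℝ)..1, (a + e * z) * (ψ z) ^ 2) := by
  sorry

/-! ### F4: the quadratic inequality -/

theorem F4 (a e : ℝ) (ha : 0 ≤ a) (he : 0 ≤ e) (hae : 0 < a + e) (R R1 R2 : ℝ → ℝ)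
    (hR : ∀ x, HasDerivAt R (R1 x) x) (hR1 : ∀ x, HasDerivAt R1 (R2 x) x)
    (hR2 : Continuous R2)
    (hpos : ∀ z ∈ Icc (0:ℝ) 1, 0 ≤ R z) (hcc : ∀ z ∈ Icc (0:ℝ) 1, R2 z ≤ 0) :
    ∫ z in (0:ℝ)..1, (a + e * z) * (psi a e R z) ^ 2 ≤
      40 * mA a e R * Lf a e R / (q1 a e * q2 a e) := by
  sorry

/-! ### F5: the final algebra -/

/-- Tangent-line form. -/
theorem F5_rtan (a e A M1 M2 S : ℝ) (ha : 0 ≤ a) (he : 0 ≤ e) (hae : 0 < a + e) (hA : 0 ≤ A)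
    (hal : 0 ≤ (3 * e + 4 * a) * A - (4 * e + 6 * a) * M1)
    (hbe : 0 ≤ (2 * e + 6 * a) * M1 - (e + 2 * a) * A)
    (hl : 0 ≤ (6 * e ^ 2 + 32 * a * e + 30 * a ^ 2) * M1 / 5
      - (3 * e ^ 2 + 12 * a * e + 10 * a ^ 2) * A / 10 - Dl a e * M2)
    (hSle : S ≤ 6 * ((3 * e + 4 * a) * A - (4 * e + 6 * a) * M1) / Dl a e * (A - M1)
      + 6 * ((2 * e + 6 * a) * M1 - (e + 2 * a) * A) / Dl a e * M1
      + 40 * A * ((6 * e ^ 2 + 32 * a * e + 30 * a ^ 2) * M1 / 5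
          - (3 * e ^ 2 + 12 * a * e + 10 * a ^ 2) * A / 10 - Dl a e * M2) / (q1 a e * q2 a e)) :
    (a * A + e * M1) * S + 15 * A * (A * M2 - M1 ^ 2) ≤ 9 / 4 * A ^ 3 := by
  sorry

/-- AM-GM step from the tangent-line form to the product form. -/
theorem F5_amgm (X A V : ℝ) (hX : 0 ≤ X) (hA : 0 ≤ A) (h : X + 15 * A * V ≤ 9 / 4 * A ^ 3) :
    80 * X ^ 2 * V ≤ 9 * A ^ 8 := by
  sorry

/-! ### Assembly -/

/-- **(TW).** For `a, e ≥ 0`, `a + e > 0` and `R ≥ 0` with `R'' ≤ 0` on `[0,1]`, with the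
moments for the weight `a + e z`:
`80 (a A + e M1)² S² (A M2 - M1²) ≤ 9 A⁸`. -/
theorem tw_ineq (a e : ℝ) (ha : 0 ≤ a) (he : 0 ≤ e) (hae : 0 < a + e) (R R1 R2 : ℝ → ℝ)
    (hR : ∀ x, HasDerivAt R (R1 x) x) (hR1 : ∀ x, HasDerivAt R1 (R2 x) x)
    (hR2 : Continuous R2)
    (hpos : ∀ z ∈ Icc (0:ℝ) 1, 0 ≤ R z) (hcc : ∀ z ∈ Icc (0:ℝ) 1, R2 z ≤ 0) :
    80 * (a * mA a e R + e * mM1 a e R) ^ 2 * (mS a e R) ^ 2 *
        (mA a e R * mM2 a e R - (mM1 a e R) ^ 2) ≤ 9 * (mA a e R) ^ 8 := by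
  sorry

end Vale.Agent.Lib.P254.TW
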